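import Vale.Agent.P231.Cert.All

/-!
Berger-Kazdan type volume inequality with rigidity along the geodesics of a Blaschke manifold
modelled on a projective space.
-/

namespace Vale.Agent.Results.P231.GeodesicVolumeRigidity

open Vale.Agent.P231

theorem result :
    ∀ lk ∈ [(1, 2), (1, 4), (1, 6), (3, 4), (3, 8), (3, 12), (3, 16), (3, 20), (7, 8)],
      (∃ S : JacobiSystem (Prod.fst lk) (Prod.snd lk), IsModelCurvature S) ∧
      ∀ S : JacobiSystem (Prod.fst lk) (Prod.snd lk),
        (∫ t in (0 : ℝ)..(Real.pi / 2), modelJacobian lk.1 lk.2 t)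
            ≤ (∫ t in (0 : ℝ)..(Real.pi / 2), meanJacobian S t) ∧
          ((∫ t in (0 : ℝ)..(Real.pi / 2), modelJacobian lk.1 lk.2 t)
              = (∫ t in (0 : ℝ)..(Real.pi / 2), meanJacobian S t) ↔ IsModelCurvature S) := by
  intro lk h
  obtain ⟨hl, ⟨c⟩⟩ := exists_cert h
  exact ⟨nonempty_jacobiSystem lk.1 lk.2, fun S => volume_rigidity hl c S⟩

end Vale.Agent.Results.P231.GeodesicVolumeRigidity
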